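import Vale.Agent.P155.H924.Final
import Vale.Agent.P155.H801.Good
import Vale.Agent.P155.A4.Main

/-!
# P155, block D complete
-/

namespace Vale.Agent.P155.H924

open Skel

/-- **Block D.** Goodness of the conditional inverse Kasteleyn matrix. -/
theorem dGood (hmono : B_mono) (hloc : C_local) : D_good :=
  d_good H801.goodDet A4.a_inv A4.a_le A4.a_EM' A4.a_mark A4.a_one A4.a_two hmono hloc

end Vale.Agent.P155.H924
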