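import Vale.Agent.P155.Defs2
import Vale.Agent.P155.D4.Main

/-!
# P155, block D: the deterministic statement `GoodDet`

`Q b w` is the conditional inverse Kasteleyn matrix `K_ζ⁻¹(b,w)`.  It satisfies the inverse relations
on a box of radius `c₀ n`, it is at most `n^{A₀}` there, and the (co)variances of finitely many local
statistics at scale `t = n^{1-κ}` are at most `B t²`.  Then `|Q - K∞⁻¹| ≤ C B / t` on `box x (t/20)`.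
-/

namespace Vale.Agent.P155.H924

open Finset

/-- The deterministic part of block D. -/
def GoodDet : Prop := ∀ A, IsPlane A → ∀ κ : ℝ, 0 < κ → κ < 1 / 10 → ∀ c0 : ℝ, 0 < c0 → ∀ A0 : ℝ,
  ∃ (S : List D4.Bx) (C : ℝ) (n0 : ℕ), 0 < C ∧ ∀ n : ℕ, n0 ≤ n → ∀ (x : Pt) (Q : Pt → Pt → ℝ) (B : ℝ),
  1 ≤ B →
  (∀ w w', White w → White w' → w ∈ box x ⌊c0 * n⌋₊ → w' ∈ box x ⌊c0 * n⌋₊ →
    ∑ b ∈ nbrs w', K w' b * Q b w = if w' = w then 1 else 0) →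
  (∀ b b', Black b → Black b' → b ∈ box x ⌊c0 * n⌋₊ → b' ∈ box x ⌊c0 * n⌋₊ →
    ∑ w ∈ nbrs b', Q b w * K w b' = if b' = b then 1 else 0) →
  (∀ b w, Black b → White w → b ∈ box x ⌊c0 * n⌋₊ → w ∈ box x ⌊c0 * n⌋₊ →
    |Q b w| ≤ (n : ℝ) ^ A0) →
  (∀ s ∈ S, ∀ r ∈ ({(1, 0), (0, 1)} : Finset Pt), ∀ d ∈ ({(1, 0), (0, 1)} : Finset Pt),
    |∑ p ∈ D4.lat x ((n : ℝ) ^ (1 - κ)) (s.u 0) (s.u 1) s.ρ r,
      ∑ q ∈ D4.lat x ((n : ℝ) ^ (1 - κ)) (s.u 2) (s.u 3) s.ρ r, Q (p + d) q * Q (q + d) p| ≤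
      B * ((n : ℝ) ^ (1 - κ)) ^ 2) →
  ∀ b w, Black b → White w → b ∈ box x ⌊(n : ℝ) ^ (1 - κ) / 20⌋₊ →
    w ∈ box x ⌊(n : ℝ) ^ (1 - κ) / 20⌋₊ →
    |Q b w - Kp A b w| ≤ C * B / (n : ℝ) ^ (1 - κ)

end Vale.Agent.P155.H924
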