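import Vale.Agent.P155.H924.Main
import Vale.Agent.P155.A4.Mark

/-!
# P155, block D: `D_good` from `GoodDet` and the interface statements of blocks A, B, C
-/

namespace Vale.Agent.P155.H924

open Finset Skel Filter

theorem Bn_eventually {c ε P : ℝ} (C2 : ℝ) (hε : 0 < ε) {q : ℕ}
    (hqP : P / q ≤ ε / 4) : ∀ᶠ n : ℕ in atTop,
    C2 * (1 + c⁻¹ ^ 2 * Real.log ((n : ℝ) + 2) *
      (((2 * q).factorial : ℝ) * (n : ℝ) ^ P) ^ ((q : ℝ)⁻¹)) ≤ (n : ℝ) ^ ε := by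
  set F : ℝ := ((2 * q).factorial : ℝ) ^ ((q : ℝ)⁻¹) with hF
  set K1 : ℝ := c⁻¹ ^ 2 * ((3 : ℝ) ^ (ε / 4) / (ε / 4)) * F with hK1
  have hF0 : 0 ≤ F := by positivity
  have hK0 : 0 ≤ K1 := by positivity
  have h1 : ∀ᶠ n : ℕ in atTop, |C2| * (1 + K1) ≤ (n : ℝ) ^ (ε / 2) := by
    have := (tendsto_rpow_atTop (half_pos hε)).comp tendsto_natCast_atTop_atTop
    exact this.eventually_ge_atTop _
  filter_upwards [h1, eventually_ge_atTop 1] with n hn hn1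
  have hn1' : (1 : ℝ) ≤ n := by exact_mod_cast hn1
  have hn0 : (0 : ℝ) < n := by linarith
  have hlog : Real.log ((n : ℝ) + 2) ≤ (3 : ℝ) ^ (ε / 4) / (ε / 4) * (n : ℝ) ^ (ε / 4) := by
    have h2 := Real.log_le_rpow_div (x := (n : ℝ) + 2) (by linarith) (show 0 < ε / 4 by linarith)
    have h3 : ((n : ℝ) + 2) ^ (ε / 4) ≤ (3 * (n : ℝ)) ^ (ε / 4) :=
      Real.rpow_le_rpow (by linarith) (by linarith) (by linarith)
    rw [Real.mul_rpow (by norm_num) hn0.le] at h3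
    calc Real.log ((n : ℝ) + 2) ≤ ((n : ℝ) + 2) ^ (ε / 4) / (ε / 4) := h2
      _ ≤ (3 : ℝ) ^ (ε / 4) * (n : ℝ) ^ (ε / 4) / (ε / 4) :=
          div_le_div_of_nonneg_right h3 (by linarith)
      _ = _ := by ring
  have hlog0 : 0 ≤ Real.log ((n : ℝ) + 2) := Real.log_nonneg (by linarith)
  have hpow : (((2 * q).factorial : ℝ) * (n : ℝ) ^ P) ^ ((q : ℝ)⁻¹) ≤ F * (n : ℝ) ^ (ε / 4) := by
    rw [Real.mul_rpow (by positivity) (by positivity), ← Real.rpow_mul hn0.le]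
    refine mul_le_mul_of_nonneg_left ?_ hF0
    exact Real.rpow_le_rpow_of_exponent_le hn1' (by rw [← div_eq_mul_inv]; exact hqP)
  have hsq : (n : ℝ) ^ (ε / 4) * (n : ℝ) ^ (ε / 4) = (n : ℝ) ^ (ε / 2) := by
    rw [← Real.rpow_add hn0]; ring_nf
  have hsq2 : (n : ℝ) ^ (ε / 2) * (n : ℝ) ^ (ε / 2) = (n : ℝ) ^ ε := by
    rw [← Real.rpow_add hn0]; ring_nf
  have hmain : c⁻¹ ^ 2 * Real.log ((n : ℝ) + 2) *
      (((2 * q).factorial : ℝ) * (n : ℝ) ^ P) ^ ((q : ℝ)⁻¹) ≤ K1 * (n : ℝ) ^ (ε / 2) := by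
    calc _ ≤ c⁻¹ ^ 2 * ((3 : ℝ) ^ (ε / 4) / (ε / 4) * (n : ℝ) ^ (ε / 4)) *
          (F * (n : ℝ) ^ (ε / 4)) := by
          refine mul_le_mul (mul_le_mul_of_nonneg_left hlog (by positivity)) hpow (by positivity)
            (by positivity)
      _ = K1 * ((n : ℝ) ^ (ε / 4) * (n : ℝ) ^ (ε / 4)) := by rw [hK1]; ring
      _ = _ := by rw [hsq]
  have h1n : 1 ≤ (n : ℝ) ^ (ε / 2) := Real.one_le_rpow hn1' (by linarith)
  calc C2 * (1 + c⁻¹ ^ 2 * Real.log ((n : ℝ) + 2) *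
        (((2 * q).factorial : ℝ) * (n : ℝ) ^ P) ^ ((q : ℝ)⁻¹))
      ≤ |C2| * (1 + c⁻¹ ^ 2 * Real.log ((n : ℝ) + 2) *
        (((2 * q).factorial : ℝ) * (n : ℝ) ^ P) ^ ((q : ℝ)⁻¹)) :=
        mul_le_mul_of_nonneg_right (le_abs_self _) (by positivity)
    _ ≤ |C2| * ((1 + K1) * (n : ℝ) ^ (ε / 2)) := by
        refine mul_le_mul_of_nonneg_left ?_ (abs_nonneg _)
        linarith
    _ = (|C2| * (1 + K1)) * (n : ℝ) ^ (ε / 2) := by ring
    _ ≤ (n : ℝ) ^ (ε / 2) * (n : ℝ) ^ (ε / 2) :=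
        mul_le_mul_of_nonneg_right hn (by positivity)
    _ = _ := hsq2

theorem half_eventually {κ : ℝ} (hκ : 0 < κ) : ∀ᶠ n : ℕ in atTop, (n : ℝ) ^ (1 - κ) ≤ n / 2 := by
  have h1 : ∀ᶠ n : ℕ in atTop, (2 : ℝ) ≤ (n : ℝ) ^ κ := by
    have := (tendsto_rpow_atTop hκ).comp tendsto_natCast_atTop_atTop
    exact this.eventually_ge_atTop _
  filter_upwards [h1, eventually_ge_atTop 1] with n hn hn1
  have hn0 : (0 : ℝ) < n := by exact_mod_cast hn1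
  rw [Real.rpow_sub hn0, Real.rpow_one]
  exact div_le_div_of_nonneg_left hn0.le (by norm_num) hn

theorem card_box (x : Pt) (r : ℕ) : (box x r).card = (2 * r + 1) ^ 2 := by
  unfold box
  rw [Finset.card_product, Int.card_Icc, Int.card_Icc, pow_two]
  congr 1 <;> omega

open Classical in
/-- expectation of the pointwise bound -/
theorem expect_bound {V : Finset Pt} {ι₁ ι₂ : Type*} (bad : (Pt → Pt) → ℝ) (s₁ : Finset ι₁)
    (s₂ : Finset ι₂) (f : ι₁ → (Pt → Pt) → ℝ) (g : ι₂ → (Pt → Pt) → ℝ) {n P C1 C3 K : ℝ}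
    (hn : 1 ≤ n)
    (hpt : ∀ m ∈ PM V, bad m ≤ (n ^ (5 + P))⁻¹ * ∑ i ∈ s₁, f i m + (n ^ P)⁻¹ * ∑ i ∈ s₂, g i m)
    (hE1 : ∀ i ∈ s₁, Ex1 V (f i) ≤ 2 * C1 * n) (hE2 : ∀ i ∈ s₂, Ex1 V (g i) ≤ |C3|)
    (hcard1 : (s₁.card : ℝ) ≤ 16 * n ^ 4) (hcard2 : (s₂.card : ℝ) ≤ K) (hC1 : 0 ≤ C1) :
    Ex1 V bad ≤ (32 * C1 + K * |C3|) * n ^ (-P) := by
  have hn0 : (0 : ℝ) < n := by linarith
  calc Ex1 V bad
      ≤ Ex1 V (fun m => (n ^ (5 + P))⁻¹ * ∑ i ∈ s₁, f i m + (n ^ P)⁻¹ * ∑ i ∈ s₂, g i m) :=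
        Ex1_mono hpt
    _ = (n ^ (5 + P))⁻¹ * ∑ i ∈ s₁, Ex1 V (f i) + (n ^ P)⁻¹ * ∑ i ∈ s₂, Ex1 V (g i) := by
        rw [Ex1_add, Ex1_mul_left, Ex1_mul_left, Ex1_sum, Ex1_sum]
    _ ≤ (n ^ (5 + P))⁻¹ * (16 * n ^ 4 * (2 * C1 * n)) + (n ^ P)⁻¹ * (K * |C3|) := by
        have h1 : ∑ i ∈ s₁, Ex1 V (f i) ≤ 16 * n ^ 4 * (2 * C1 * n) := by
          calc _ ≤ ∑ _i ∈ s₁, 2 * C1 * n := Finset.sum_le_sum hE1
            _ = (s₁.card : ℝ) * (2 * C1 * n) := by rw [Finset.sum_const, nsmul_eq_mul]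
            _ ≤ _ := mul_le_mul_of_nonneg_right hcard1 (by positivity)
        have h2 : ∑ i ∈ s₂, Ex1 V (g i) ≤ K * |C3| := by
          calc _ ≤ ∑ _i ∈ s₂, |C3| := Finset.sum_le_sum hE2
            _ = (s₂.card : ℝ) * |C3| := by rw [Finset.sum_const, nsmul_eq_mul]
            _ ≤ _ := mul_le_mul_of_nonneg_right hcard2 (abs_nonneg _)
        exact add_le_add (mul_le_mul_of_nonneg_left h1 (by positivity))
          (mul_le_mul_of_nonneg_left h2 (by positivity))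
    _ = (32 * C1 + K * |C3|) * n ^ (-P) := by
        have e1 : (n ^ (5 + P))⁻¹ = (n ^ 5)⁻¹ * n ^ (-P) := by
          rw [Real.rpow_add hn0, mul_inv, Real.rpow_neg hn0.le]
          congr 2
          exact_mod_cast Real.rpow_natCast n 5
        have e2 : (n ^ P)⁻¹ = n ^ (-P) := by rw [Real.rpow_neg hn0.le]
        rw [e1, e2]
        have e3 : (n ^ 5)⁻¹ * (16 * n ^ 4 * (2 * C1 * n)) = 32 * C1 := by
          field_simp
          ring
        calc (n ^ 5)⁻¹ * n ^ (-P) * (16 * n ^ 4 * (2 * C1 * n)) + n ^ (-P) * (K * |C3|)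
            = ((n ^ 5)⁻¹ * (16 * n ^ 4 * (2 * C1 * n))) * n ^ (-P) + n ^ (-P) * (K * |C3|) := by
              ring
          _ = _ := by rw [e3]; ring

/-- expectation of the monomer ratios -/
theorem E1_bound (hEM : A4.A_EM') {C1 : ℝ} (hC1 : 1 ≤ C1) (hmono : ∀ (T : Temp) (w b : Pt), White w →
      Black b → w ∈ T.V → b ∈ T.V → C1 * (1 + dn b w) ≤ dF T.faceSet w →
      (Z (T.V \ {w, b}) : ℝ) / Z T.V ≤ C1 * (1 + dn b w))
    {T : Temp} {x : Pt} {n : ℕ} (hn4 : 4 ≤ n) (hnC1 : 2 * C1 ≤ n) (hdF : 2 * n ≤ dF T.faceSet x)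
    (hZ0 : 0 < Z T.V) {r0 : ℕ} (hr0 : (r0 : ℝ) ≤ 1 / (4 * C1) * n) {b w : Pt} (hb' : Black b)
    (hw' : White w) (hb : b ∈ box x r0) (hw : w ∈ box x r0) :
    Ex1 T.V (ratio T x n b w) ≤ 2 * C1 * n := by
  have hn0 : (0 : ℝ) < n := by exact_mod_cast (show 0 < n by omega)
  have hr0n : 4 * r0 ≤ n := by
    have h1 : 1 / (4 * C1) ≤ 1 / 4 := one_div_le_one_div_of_le (by norm_num) (by linarith)
    have h2 : (r0 : ℝ) ≤ 1 / 4 * n := hr0.trans (mul_le_mul_of_nonneg_right h1 hn0.le)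
    have : (4 * r0 : ℝ) ≤ n := by linarith
    exact_mod_cast this
  have hbd := mem_box_iff_dn.1 hb
  have hwd := mem_box_iff_dn.1 hw
  have hbV : b ∈ T.V := mem_V (x := x) (by omega)
  have hwV : w ∈ T.V := mem_V (x := x) (by omega)
  have e1 : Ex1 T.V (ratio T x n b w) ≤ (Z (T.V \ {w, b}) : ℝ) / Z T.V := by
    refine hEM T.V (box x n) w b hZ0 hwV hbV (mem_box_iff_dn.2 (by omega))
      (mem_box_iff_dn.2 (by omega)) (fun u hu => ?_) (fun u hu => ?_)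
    · have h1 := dn_triangle x w u
      have h2 := dn_adj hu
      exact mem_box_iff_dn.2 (by omega)
    · have h1 := dn_triangle x b u
      have h2 := dn_adj hu
      exact mem_box_iff_dn.2 (by omega)
  have hbw : dn b w ≤ 2 * r0 := by
    have := dn_triangle b x w
    rw [dn_comm b x] at this
    omega
  have hdw : n ≤ dF T.faceSet w := by
    have := dF_lip (faceSet_finite T) x w
    omega
  have hbw' : C1 * (1 + (dn b w : ℝ)) ≤ n := by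
    have h1 : (dn b w : ℝ) ≤ 2 * (1 / (4 * C1) * n) := by
      have : (dn b w : ℝ) ≤ 2 * r0 := by exact_mod_cast hbw
      linarith
    have h2 : C1 * (1 + (dn b w : ℝ)) ≤ C1 * (1 + 2 * (1 / (4 * C1) * n)) :=
      mul_le_mul_of_nonneg_left (by linarith) (by linarith)
    have h3 : C1 * (1 + 2 * (1 / (4 * C1) * n)) = C1 + n / 2 := by
      field_simp
      ring
    linarith
  have hdw' : (n : ℝ) ≤ dF T.faceSet w := by exact_mod_cast hdw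
  have := hmono T w b hw' hb' hwV hbV (hbw'.trans hdw')
  calc Ex1 T.V (ratio T x n b w) ≤ C1 * (1 + (dn b w : ℝ)) := e1.trans this
    _ ≤ n := hbw'
    _ ≤ 2 * C1 * n := by nlinarith

/-- the scale parameter of the exponential moments -/
noncomputable def lam (c : ℝ) (t' : ℕ) : ℝ := c / (t' * Real.sqrt (Real.log (t' + 2)))

theorem lam_pos {c : ℝ} (hc : 0 < c) {t' : ℕ} (ht' : 1 ≤ t') : 0 < lam c t' := by
  have h1 : (1 : ℝ) ≤ t' := by exact_mod_cast ht'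
  have hlogpos : 0 < Real.log ((t' : ℝ) + 2) := Real.log_pos (by linarith)
  have := Real.sqrt_pos.2 hlogpos
  unfold lam
  positivity

/-- expectation of the conditional exponential moments -/
theorem E2_bound (hmark : A_mark) {c C3 : ℝ}
    (hloc : ∀ (T : Temp) (x : Pt) (t : ℕ), 1 ≤ t →
      4 * t ≤ dF T.faceSet x → ∀ (P : Finset Pt) (d : Pt), (∀ p ∈ P, White p ∧ p ∈ box x t) →
      Ex1 T.V (fun m => Real.cosh (c / (t * Real.sqrt (Real.log (t + 2))) *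
      (Lst P d m - Ex1 T.V (Lst P d)))) ≤ C3)
    {T : Temp} {x : Pt} {n t' : ℕ} (hn4 : 4 ≤ n) (ht'1 : 1 ≤ t') (ht'n : 2 * t' ≤ n)
    (hdF : 2 * n ≤ dF T.faceSet x) {PP : Finset Pt} (d : Pt)
    (hPbox : ∀ p ∈ PP, White p ∧ p ∈ box x t') :
    Ex1 T.V (GG T x n (lam c t') PP d) ≤ |C3| := by
  have e := mark_Lst hmark (show n + 2 ≤ dF T.faceSet x by omega) (P := PP) (d := d) (t := t')
    (by omega) (fun p hp => (hPbox p hp).2)
    (fun y => Real.cosh (lam c t' * (y - Ex1 T.V (Lst PP d))))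
  have e2 : Ex1 T.V (GG T x n (lam c t') PP d) =
      Ex1 T.V (fun m => Real.cosh (lam c t' * (Lst PP d m - Ex1 T.V (Lst PP d)))) := e.symm
  have e3 := hloc T x t' ht'1 (by omega) PP d hPbox
  rw [e2]
  exact e3.trans (le_abs_self _)

/-- the size of the second moments -/
noncomputable def Bn (c P : ℝ) (q n : ℕ) : ℝ := 1 + c⁻¹ ^ 2 * Real.log ((n : ℝ) + 2) *
  (((2 * q).factorial : ℝ) * (n : ℝ) ^ P) ^ ((q : ℝ)⁻¹)

theorem one_le_Bn (c P : ℝ) (q n : ℕ) : 1 ≤ Bn c P q n := by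
  have h1 : 0 ≤ Real.log ((n : ℝ) + 2) := Real.log_nonneg (by
    have : (0 : ℝ) ≤ n := Nat.cast_nonneg n
    linarith)
  have : 0 ≤ c⁻¹ ^ 2 * Real.log ((n : ℝ) + 2) *
      (((2 * q).factorial : ℝ) * (n : ℝ) ^ P) ^ ((q : ℝ)⁻¹) := by positivity
  unfold Bn
  linarith

theorem lam_Bn {c P t : ℝ} {q n t' : ℕ} (ht't : (t' : ℝ) ≤ t) (ht'n : t' ≤ n) :
    (lam c t')⁻¹ ^ 2 * (((2 * q).factorial : ℝ) * (n : ℝ) ^ P) ^ ((q : ℝ)⁻¹) ≤
      Bn c P q n * t ^ 2 := by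
  have ht0 : (0 : ℝ) ≤ t' := Nat.cast_nonneg _
  have hlogpos : 0 < Real.log ((t' : ℝ) + 2) := Real.log_pos (by linarith)
  have hlogn : Real.log ((t' : ℝ) + 2) ≤ Real.log ((n : ℝ) + 2) := by
    apply Real.log_le_log (by linarith)
    have : (t' : ℝ) ≤ n := by exact_mod_cast ht'n
    linarith
  have hlogn0 : 0 ≤ Real.log ((n : ℝ) + 2) := hlogpos.le.trans hlogn
  have e : (lam c t')⁻¹ ^ 2 = c⁻¹ ^ 2 * (t' : ℝ) ^ 2 * Real.log ((t' : ℝ) + 2) := by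
    unfold lam
    rw [inv_div, div_pow, mul_pow, Real.sq_sqrt hlogpos.le, inv_pow]
    ring
  rw [e]
  have h2 : (t' : ℝ) ^ 2 ≤ t ^ 2 := pow_le_pow_left₀ ht0 ht't 2
  have hX : 0 ≤ (((2 * q).factorial : ℝ) * (n : ℝ) ^ P) ^ ((q : ℝ)⁻¹) := by positivity
  calc c⁻¹ ^ 2 * (t' : ℝ) ^ 2 * Real.log ((t' : ℝ) + 2) *
        (((2 * q).factorial : ℝ) * (n : ℝ) ^ P) ^ ((q : ℝ)⁻¹)
      = (c⁻¹ ^ 2 * Real.log ((t' : ℝ) + 2) *
        (((2 * q).factorial : ℝ) * (n : ℝ) ^ P) ^ ((q : ℝ)⁻¹)) * (t' : ℝ) ^ 2 := by ring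
    _ ≤ (c⁻¹ ^ 2 * Real.log ((n : ℝ) + 2) *
        (((2 * q).factorial : ℝ) * (n : ℝ) ^ P) ^ ((q : ℝ)⁻¹)) * t ^ 2 := by
        refine mul_le_mul ?_ h2 (by positivity) (by positivity)
        exact mul_le_mul_of_nonneg_right (mul_le_mul_of_nonneg_left hlogn (by positivity)) hX
    _ ≤ Bn c P q n * t ^ 2 := by
        refine mul_le_mul_of_nonneg_right ?_ (sq_nonneg t)
        unfold Bn
        linarith

/-- the index set of the local statistics -/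
abbrev Ix := D4.Bx × Pt × Pt × Bool

/-- the lattice boxes -/
noncomputable def LB (x : Pt) (t : ℝ) (i : Ix) : Finset Pt :=
  if i.2.2.2 then D4.lat x t (i.1.u 0) (i.1.u 1) i.1.ρ i.2.1
  else D4.lat x t (i.1.u 2) (i.1.u 3) i.1.ρ i.2.1

theorem LB_box {x : Pt} {t : ℝ} (ht : 0 < t) {i : Ix}
    (hr : i.2.1 ∈ ({(1, 0), (0, 1)} : Finset Pt)) :
    ∀ p ∈ LB x t i, White p ∧ p ∈ box x ⌊t⌋₊ := by
  intro p hp
  unfold LB at hp
  split_ifs at hp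
  · exact ⟨lat_white ht hr hp, lat_left_box ht hp⟩
  · exact ⟨lat_white ht hr hp, lat_right_box ht hp⟩

open Classical in
/-- the finite family -/
noncomputable def fam (S : List D4.Bx) : Finset Ix :=
  S.toFinset ×ˢ (({(1, 0), (0, 1)} : Finset Pt) ×ˢ
      (({(1, 0), (0, 1)} : Finset Pt) ×ˢ (Finset.univ : Finset Bool)))

theorem mem_fam {S : List D4.Bx} {i : Ix} : i ∈ fam S ↔ i.1 ∈ S ∧
    i.2.1 ∈ ({(1, 0), (0, 1)} : Finset Pt) ∧ i.2.2.1 ∈ ({(1, 0), (0, 1)} : Finset Pt) := by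
  classical
  unfold fam
  rw [Finset.mem_product, Finset.mem_product, Finset.mem_product, List.mem_toFinset]
  constructor
  · rintro ⟨h1, h2, h3, -⟩
    exact ⟨h1, h2, h3⟩
  · rintro ⟨h1, h2, h3⟩
    exact ⟨h1, h2, h3, Finset.mem_univ _⟩

open Classical in
/-- the estimate for a large `n` -/
theorem good_large (hinv : A_inv) (hle : A_le) (hEM : A4.A_EM') (hmark : A_mark)
    (hone : A_one) (htwo : A_two) {A : Pt → ℝ} {κ ε P C1 C2 C3 c : ℝ} {S : List D4.Bx} {q : ℕ}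
    (hC1 : 1 ≤ C1) (hmono : ∀ (T : Temp) (w b : Pt), White w →
      Black b → w ∈ T.V → b ∈ T.V → C1 * (1 + dn b w) ≤ dF T.faceSet w →
      (Z (T.V \ {w, b}) : ℝ) / Z T.V ≤ C1 * (1 + dn b w))
    (hloc : ∀ (T : Temp) (x : Pt) (t : ℕ), 1 ≤ t →
      4 * t ≤ dF T.faceSet x → ∀ (P : Finset Pt) (d : Pt), (∀ p ∈ P, White p ∧ p ∈ box x t) →
      Ex1 T.V (fun m => Real.cosh (c / (t * Real.sqrt (Real.log (t + 2))) *
      (Lst P d m - Ex1 T.V (Lst P d)))) ≤ C3) (hc : 0 < c) (hq : q ≠ 0)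
    {T : Temp} {x : Pt} {n : ℕ} (hn4 : 4 ≤ n) (hnC1 : 2 * C1 ≤ n) (hdF : 2 * n ≤ dF T.faceSet x)
    (ht1 : 1 ≤ (n : ℝ) ^ (1 - κ)) (ht2 : (n : ℝ) ^ (1 - κ) ≤ n / 2)
    (hfin : C2 * Bn c P q n / (n : ℝ) ^ (1 - κ) ≤ (n : ℝ) ^ (-1 + κ + ε))
    (hdet : ∀ (Q : Pt → Pt → ℝ) (B : ℝ), 1 ≤ B →
      (∀ w w', White w → White w' → w ∈ box x ⌊1 / (4 * C1) * n⌋₊ →
        w' ∈ box x ⌊1 / (4 * C1) * n⌋₊ → ∑ b ∈ nbrs w', K w' b * Q b w = if w' = w then 1 else 0) →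
      (∀ b b', Black b → Black b' → b ∈ box x ⌊1 / (4 * C1) * n⌋₊ →
        b' ∈ box x ⌊1 / (4 * C1) * n⌋₊ → ∑ w ∈ nbrs b', Q b w * K w b' = if b' = b then 1 else 0) →
      (∀ b w, Black b → White w → b ∈ box x ⌊1 / (4 * C1) * n⌋₊ →
        w ∈ box x ⌊1 / (4 * C1) * n⌋₊ → |Q b w| ≤ (n : ℝ) ^ (5 + P)) →
      (∀ s ∈ S, ∀ r ∈ ({(1, 0), (0, 1)} : Finset Pt), ∀ d ∈ ({(1, 0), (0, 1)} : Finset Pt),
        |∑ p ∈ D4.lat x ((n : ℝ) ^ (1 - κ)) (s.u 0) (s.u 1) s.ρ r,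
          ∑ q ∈ D4.lat x ((n : ℝ) ^ (1 - κ)) (s.u 2) (s.u 3) s.ρ r, Q (p + d) q * Q (q + d) p| ≤
          B * ((n : ℝ) ^ (1 - κ)) ^ 2) →
      ∀ b w, Black b → White w → b ∈ box x ⌊(n : ℝ) ^ (1 - κ) / 20⌋₊ →
        w ∈ box x ⌊(n : ℝ) ^ (1 - κ) / 20⌋₊ →
        |Q b w - Kp A b w| ≤ C2 * B / (n : ℝ) ^ (1 - κ))
    (hZ0 : 0 < Z T.V) :
    Ex1 T.V (fun m => if GoodM A T κ ε x n m then (0 : ℝ) else 1) ≤
      (32 * C1 + 8 * (S.toFinset.card : ℝ) * |C3|) * (n : ℝ) ^ (-P) := by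
  obtain ⟨t, ht⟩ : ∃ t : ℝ, t = (n : ℝ) ^ (1 - κ) := ⟨_, rfl⟩
  obtain ⟨t', ht'⟩ : ∃ t' : ℕ, t' = ⌊t⌋₊ := ⟨_, rfl⟩
  obtain ⟨r0, hr0⟩ : ∃ r0 : ℕ, r0 = ⌊1 / (4 * C1) * (n : ℝ)⌋₊ := ⟨_, rfl⟩
  rw [← ht] at ht1 ht2 hfin
  have hn1 : (1 : ℝ) ≤ n := by exact_mod_cast (show 1 ≤ n by omega)
  have hn0 : (0 : ℝ) < n := by linarith
  have ht0 : 0 < t := by linarith
  have ht't : (t' : ℝ) ≤ t := by rw [ht']; exact Nat.floor_le ht0.le
  have ht'1 : 1 ≤ t' := by rw [ht']; exact Nat.le_floor (by exact_mod_cast ht1)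
  have ht'n : 2 * t' ≤ n := by
    have : (2 * t' : ℝ) ≤ n := by linarith
    exact_mod_cast this
  have hr0' : (r0 : ℝ) ≤ 1 / (4 * C1) * n := by rw [hr0]; exact Nat.floor_le (by positivity)
  have hr0n : 4 * r0 ≤ n := by
    have h1 : 1 / (4 * C1) ≤ 1 / 4 := one_div_le_one_div_of_le (by norm_num) (by linarith)
    have h2 : (r0 : ℝ) ≤ 1 / 4 * n := hr0'.trans (mul_le_mul_of_nonneg_right h1 hn0.le)
    have : (4 * r0 : ℝ) ≤ n := by linarith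
    exact_mod_cast this
  have hMpos : 0 < (n : ℝ) ^ P := by positivity
  have hlampos := lam_pos hc ht'1
  have hn2 : n + 2 ≤ dF T.faceSet x := by omega
  have hBt := lam_Bn (c := c) (P := P) (q := q) ht't (show t' ≤ n by omega)
  rw [ht] at hBt
  have hr0n' : ⌊1 / (4 * C1) * (n : ℝ)⌋₊ + 1 ≤ n := by rw [← hr0]; omega
  have ht'n' : ⌊(n : ℝ) ^ (1 - κ)⌋₊ + 2 ≤ n := by rw [← ht, ← ht']; omega
  have hpt : ∀ m ∈ PM T.V, (if GoodM A T κ ε x n m then (0 : ℝ) else 1) ≤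
      ((n : ℝ) ^ (5 + P))⁻¹ * ∑ i ∈ ((box x r0).filter Black) ×ˢ ((box x r0).filter White),
        ratio T x n i.1 i.2 m +
      ((n : ℝ) ^ P)⁻¹ * ∑ i ∈ fam S, GG T x n (lam c t') (LB x t i) i.2.2.1 m := by
    intro m hm
    refine bad_le (good := GoodM A T κ ε x n m) _ _ (fun i : Pt × Pt => ratio T x n i.1 i.2 m)
      (fun i : Ix => GG T x n (lam c t') (LB x t i) i.2.2.1 m) (by positivity) hMpos
      (fun i _ => ratio_nonneg _ _ _ _ _ _) (fun i _ => GG_nonneg _ _ _ _ _ _ _) ?_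
    intro h1 h2
    refine good_of_events hinv hle hone htwo hdet (by omega) hn2 hr0n' ht'n' hm hlampos hq
      (one_le_Bn c P q n) hBt (by rw [← ht]; exact hfin) ?_ ?_
    · intro b w hb hw hbx hwx
      rw [← hr0] at hbx hwx
      exact h1 (b, w) (Finset.mem_product.2 ⟨Finset.mem_filter.2 ⟨hbx, hb⟩,
        Finset.mem_filter.2 ⟨hwx, hw⟩⟩)
    · intro s hs r hr d hd
      rw [← ht]
      exact ⟨h2 (s, r, d, true) (mem_fam.2 ⟨hs, hr, hd⟩),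
        h2 (s, r, d, false) (mem_fam.2 ⟨hs, hr, hd⟩)⟩
  refine expect_bound (fun m => if GoodM A T κ ε x n m then (0 : ℝ) else 1) _ _
    (fun (i : Pt × Pt) m => ratio T x n i.1 i.2 m)
    (fun (i : Ix) m => GG T x n (lam c t') (LB x t i) i.2.2.1 m) hn1 hpt ?_ ?_ ?_ ?_ (by linarith)
  · intro i hi
    obtain ⟨h1, h2⟩ := Finset.mem_product.1 hi
    rw [Finset.mem_filter] at h1 h2
    exact E1_bound hEM hC1 hmono hn4 hnC1 hdF hZ0 hr0' h1.2 h2.2 h1.1 h2.1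
  · intro i hi
    have h := LB_box ht0 (mem_fam.1 hi).2.1 (x := x)
    rw [← ht'] at h
    exact E2_bound hmark hloc hn4 ht'1 ht'n hdF i.2.2.1 h
  · have h1 : (((box x r0).filter Black) ×ˢ ((box x r0).filter White)).card ≤
        (2 * r0 + 1) ^ 2 * (2 * r0 + 1) ^ 2 := by
      rw [Finset.card_product]
      exact Nat.mul_le_mul ((Finset.card_filter_le _ _).trans (card_box x r0).le)
        ((Finset.card_filter_le _ _).trans (card_box x r0).le)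
    have h2 : (2 * r0 + 1) ≤ 2 * n := by omega
    have h3 : (((box x r0).filter Black) ×ˢ ((box x r0).filter White)).card ≤ 16 * n ^ 4 := by
      calc _ ≤ (2 * r0 + 1) ^ 2 * (2 * r0 + 1) ^ 2 := h1
        _ ≤ (2 * n) ^ 2 * (2 * n) ^ 2 :=
            Nat.mul_le_mul (Nat.pow_le_pow_left h2 2) (Nat.pow_le_pow_left h2 2)
        _ = 16 * n ^ 4 := by ring
    exact_mod_cast h3
  · have : (fam S).card = S.toFinset.card * (2 * (2 * 2)) := by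
      unfold fam
      rw [Finset.card_product, Finset.card_product, Finset.card_product, Finset.card_univ,
        Fintype.card_bool]
      rfl
    rw [this]
    push_cast
    linarith

open Classical in
/-- the main estimate, in terms of `n` only -/
theorem good_n (hdet : GoodDet) (hinv : A_inv) (hle : A_le) (hEM : A4.A_EM') (hmark : A_mark)
    (hone : A_one) (htwo : A_two) (hmono : B_mono) (hloc : C_local) {A : Pt → ℝ} (hA : IsPlane A)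
    {κ ε P : ℝ} (hκ : 0 < κ) (hκ' : κ < 1 / 10) (hε : 0 < ε) (hP : 0 < P) :
    ∃ C : ℝ, ∀ (T : Temp) (x : Pt) (n : ℕ), 1 ≤ n → 2 * n ≤ dF T.faceSet x →
      Ex1 T.V (fun m => if GoodM A T κ ε x n m then (0 : ℝ) else 1) ≤ C * (n : ℝ) ^ (-P) := by
  obtain ⟨C1', hC1'⟩ := hmono
  obtain ⟨C1, hC1⟩ : ∃ C1 : ℝ, C1 = max C1' 1 := ⟨_, rfl⟩
  have hC1pos : 1 ≤ C1 := by rw [hC1]; exact le_max_right _ _
  have hC1le : C1' ≤ C1 := by rw [hC1]; exact le_max_left _ _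
  have hmono' : ∀ (T : Temp) (w b : Pt), White w → Black b → w ∈ T.V → b ∈ T.V →
      C1 * (1 + dn b w) ≤ dF T.faceSet w →
      (Z (T.V \ {w, b}) : ℝ) / Z T.V ≤ C1 * (1 + dn b w) := by
    intro T w b h1 h2 h3 h4 h5
    have h6 : C1' * (1 + (dn b w : ℝ)) ≤ C1 * (1 + dn b w) :=
      mul_le_mul_of_nonneg_right hC1le (by positivity)
    exact (hC1' T w b h1 h2 h3 h4 (h6.trans h5)).trans h6
  obtain ⟨S, C2, n0, hC2, hdet'⟩ := hdet A hA κ hκ hκ' (1 / (4 * C1)) (by positivity) (5 + P)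
  obtain ⟨c, hc, C3, hloc'⟩ := loc_cosh hloc
  -- the exponent
  obtain ⟨q, hq0, hqP⟩ : ∃ q : ℕ, q ≠ 0 ∧ P / q ≤ ε / 4 := by
    obtain ⟨q, hq⟩ := exists_nat_gt (4 * P / ε)
    have hqpos : (0 : ℝ) < q := lt_of_le_of_lt (by positivity) hq
    refine ⟨q, by exact_mod_cast hqpos.ne', ?_⟩
    rw [div_lt_iff₀ hε] at hq
    rw [div_le_iff₀ hqpos]
    linarith
  have hev := (Bn_eventually (c := c) C2 hε hqP).and ((half_eventually hκ).and
    ((eventually_ge_atTop n0).and ((eventually_ge_atTop 4).and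
      (eventually_ge_atTop ⌈2 * C1⌉₊))))
  obtain ⟨N, hN⟩ := eventually_atTop.1 hev
  refine ⟨32 * C1 + 8 * (S.toFinset.card : ℝ) * |C3| + (N : ℝ) ^ P, ?_⟩
  intro T x n hn1 hdF
  have hn1' : (1 : ℝ) ≤ n := by exact_mod_cast hn1
  have hn0 : (0 : ℝ) < n := by linarith
  have hNP : 0 ≤ (N : ℝ) ^ P := Real.rpow_nonneg (Nat.cast_nonneg N) P
  have hCC : 0 ≤ 32 * C1 + 8 * (S.toFinset.card : ℝ) * |C3| := by positivity
  have hnP : 0 ≤ (n : ℝ) ^ (-P) := Real.rpow_nonneg hn0.le _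
  rcases lt_or_ge n N with hnN | hnN
  · -- small n
    have h1 : Ex1 T.V (fun m => if GoodM A T κ ε x n m then (0 : ℝ) else 1) ≤ 1 :=
      Ex1_le_const zero_le_one fun m _ => by split_ifs <;> norm_num
    refine h1.trans ?_
    have h2 : (n : ℝ) ^ P ≤ (N : ℝ) ^ P :=
      Real.rpow_le_rpow hn0.le (by exact_mod_cast hnN.le) hP.le
    have h3 : (1 : ℝ) = (n : ℝ) ^ P * (n : ℝ) ^ (-P) := by
      rw [← Real.rpow_add hn0, add_neg_cancel, Real.rpow_zero]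
    calc (1 : ℝ) = (n : ℝ) ^ P * (n : ℝ) ^ (-P) := h3
      _ ≤ _ := mul_le_mul_of_nonneg_right (by linarith) hnP
  obtain ⟨hBn, hhalf, hnn0, hn4, hnC1⟩ := hN n hnN
  have hnC1' : 2 * C1 ≤ n := (Nat.le_ceil _).trans (by exact_mod_cast hnC1)
  have ht1 : 1 ≤ (n : ℝ) ^ (1 - κ) := Real.one_le_rpow hn1' (by linarith)
  have hfin : C2 * Bn c P q n / (n : ℝ) ^ (1 - κ) ≤ (n : ℝ) ^ (-1 + κ + ε) := by
    have e : (n : ℝ) ^ (-1 + κ + ε) = (n : ℝ) ^ ε / (n : ℝ) ^ (1 - κ) := by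
      rw [← Real.rpow_sub hn0]
      ring_nf
    rw [e]
    exact div_le_div_of_nonneg_right hBn (by linarith)
  -- if there is no matching, everything is trivial
  rcases Nat.eq_zero_or_pos (Z T.V) with hZ0 | hZ0
  · have h1 : Ex1 T.V (fun m => if GoodM A T κ ε x n m then (0 : ℝ) else 1) = 0 := by
      unfold Ex1
      rw [hZ0, Nat.cast_zero, inv_zero, zero_mul]
    rw [h1]
    exact mul_nonneg (by linarith) hnP
  refine (good_large hinv hle hEM hmark hone htwo hC1pos hmono' hloc' hc hq0 hn4 hnC1' hdF ht1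
    hhalf hfin (fun Q B => hdet' n hnn0 x Q B) hZ0).trans ?_
  exact mul_le_mul_of_nonneg_right (by linarith) hnP

/-- **Block D.** -/
theorem d_good (hdet : GoodDet) (hinv : A_inv) (hle : A_le) (hEM : A4.A_EM') (hmark : A_mark)
    (hone : A_one) (htwo : A_two) (hmono : B_mono) (hloc : C_local) : D_good := by
  intro A hA κ ε a p hκ hκ' hε ha hp
  obtain ⟨C, hC⟩ := good_n hdet hinv hle hEM hmark hone htwo hmono hloc hA hκ hκ' hε
    (div_pos hp ha)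
  refine ⟨|C|, fun R T hR _ x n hn hdF => ?_⟩
  have hR' : (1 : ℝ) ≤ R := by exact_mod_cast hR
  have hR0 : (0 : ℝ) < R := by linarith
  have hn1 : (1 : ℝ) ≤ n := (Real.one_le_rpow hR' ha.le).trans hn
  refine (hC T x n (by exact_mod_cast hn1) hdF).trans ?_
  have h1 : (n : ℝ) ^ (-(p / a)) ≤ (R : ℝ) ^ (-p) := by
    calc (n : ℝ) ^ (-(p / a)) ≤ ((R : ℝ) ^ a) ^ (-(p / a)) :=
          Real.rpow_le_rpow_of_nonpos (by positivity) hn (by
            have := div_pos hp ha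
            linarith)
      _ = (R : ℝ) ^ (-p) := by
          rw [← Real.rpow_mul hR0.le]
          congr 1
          field_simp
  exact mul_le_mul (le_abs_self _) h1 (by positivity) (abs_nonneg _)

end Vale.Agent.P155.H924
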