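import Vale.Agent.P155.Skel
import Vale.Agent.P155.A.Cross

/-!
# P155, block D: geometry of `T.V` near a point deep inside the polygon
-/

namespace Vale.Agent.P155.H924

open Finset Skel

theorem mem_box {x y : Pt} {r : ℕ} :
    y ∈ box x r ↔ (|y.1 - x.1| ≤ r ∧ |y.2 - x.2| ≤ r) := by
  unfold box
  rw [Finset.mem_product, Finset.mem_Icc, Finset.mem_Icc, abs_le, abs_le]
  constructor
  · rintro ⟨⟨h1, h2⟩, h3, h4⟩
    exact ⟨⟨by linarith, by linarith⟩, by linarith, by linarith⟩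
  · rintro ⟨⟨h1, h2⟩, h3, h4⟩
    exact ⟨⟨by linarith, by linarith⟩, by linarith, by linarith⟩

theorem dn_le_iff {x y : Pt} {r : ℕ} : dn x y ≤ r ↔ (|x.1 - y.1| ≤ r ∧ |x.2 - y.2| ≤ r) := by
  unfold dn dinf
  rw [Int.toNat_le, max_le_iff]

theorem mem_box_iff_dn {x y : Pt} {r : ℕ} : y ∈ box x r ↔ dn x y ≤ r := by
  rw [mem_box, dn_le_iff, abs_sub_comm x.1, abs_sub_comm x.2]

theorem dn_comm (x y : Pt) : dn x y = dn y x := by
  unfold dn dinf
  rw [abs_sub_comm x.1, abs_sub_comm x.2]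

theorem dn_triangle (x y z : Pt) : dn x z ≤ dn x y + dn y z := by
  rw [dn_le_iff]
  have h1 := (dn_le_iff (x := x) (y := y)).1 le_rfl
  have h2 := (dn_le_iff (x := y) (y := z)).1 le_rfl
  push_cast
  constructor
  · exact (abs_sub_le x.1 y.1 z.1).trans (add_le_add h1.1 h2.1)
  · exact (abs_sub_le x.2 y.2 z.2).trans (add_le_add h1.2 h2.2)

/-- points closer than `dF O x` are in `O` -/
theorem mem_of_dn_lt {O : Set Pt} {x y : Pt} (h : dn x y < dF O x) : y ∈ O := by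
  by_contra hy
  exact absurd (Nat.sInf_le (s := {r | ∃ y, y ∉ O ∧ dn x y ≤ r}) ⟨y, hy, le_rfl⟩) (not_le.2 h)

/-- `dF` is 1-Lipschitz -/
theorem dF_lip {O : Set Pt} (hO : O.Finite) (x y : Pt) : dF O x ≤ dF O y + dn x y := by
  have hne : {r | ∃ z, z ∉ O ∧ dn y z ≤ r}.Nonempty := by
    obtain ⟨z, hz⟩ := hO.exists_notMem
    exact ⟨dn y z, z, hz, le_rfl⟩
  obtain ⟨z, hz, hle⟩ := Nat.sInf_mem hne
  refine Nat.sInf_le ⟨z, hz, ?_⟩
  have := dn_triangle x y z
  change dn x z ≤ sInf {r | ∃ z, z ∉ O ∧ dn y z ≤ r} + dn x y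
  omega

theorem closedVerts_finite (T : Temp) : T.closedVerts.Finite := by
  have h := (LatCycle.inside_finite (γ := T.γ))
  have : T.closedVerts ⊆ ⋃ f ∈ {f | T.γ.inside f},
      (Set.Icc (2 * f.1) (2 * f.1 + 2) ×ˢ Set.Icc (2 * f.2) (2 * f.2 + 2)) := by
    rintro v ⟨f, hf, h1, h2, h3, h4⟩
    rw [Set.mem_iUnion₂]
    exact ⟨f, hf, ⟨h1, h2⟩, h3, h4⟩
  refine (h.biUnion fun f _ => ?_).subset this
  exact (Set.finite_Icc _ _).prod (Set.finite_Icc _ _)

theorem faceSet_finite (T : Temp) : T.faceSet.Finite := by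
  refine (closedVerts_finite T).subset ?_
  rintro v ⟨f, hf, h1, h2, h3, h4⟩
  exact ⟨f, hf, h1, by omega, h3, by omega⟩

theorem mem_V_iff {T : Temp} {v : Pt} : v ∈ T.V ↔ v ∈ T.closedVerts ∧ v ≠ T.v0 := by
  have h : (T.closedVerts \ {T.v0}).Finite := (closedVerts_finite T).subset Set.sdiff_subset
  unfold Temp.V
  rw [dif_pos h, Set.Finite.mem_toFinset, Set.mem_sdiff, Set.mem_singleton_iff]

/-- vertices deep inside the polygon belong to `T.V` -/
theorem mem_V {T : Temp} {x v : Pt} (h : dn x v + 2 ≤ dF T.faceSet x) : v ∈ T.V := by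
  have hface : ∀ y : Pt, dn x y ≤ dn x v + 1 → y ∈ T.faceSet := fun y hy =>
    mem_of_dn_lt (lt_of_le_of_lt hy (by omega))
  have h0 := (dn_le_iff (x := x) (y := v)).1 le_rfl
  have hdn : ∀ a b : ℤ, |a| ≤ 1 → |b| ≤ 1 → ((v.1 + a, v.2 + b) : Pt) ∈ T.faceSet := by
    intro a b ha hb
    refine hface _ (dn_le_iff.2 ⟨?_, ?_⟩)
    · have := abs_sub_le x.1 v.1 (v.1 + a)
      have e : |v.1 - (v.1 + a)| = |a| := by rw [sub_add_cancel_left, abs_neg]
      rw [e] at this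
      push_cast
      linarith [h0.1]
    · have := abs_sub_le x.2 v.2 (v.2 + b)
      have e : |v.2 - (v.2 + b)| = |b| := by rw [sub_add_cancel_left, abs_neg]
      rw [e] at this
      push_cast
      linarith [h0.2]
  rw [mem_V_iff]
  refine ⟨?_, ?_⟩
  · obtain ⟨f, hf, h1, h2, h3, h4⟩ := hface v (by omega)
    exact ⟨f, hf, h1, by omega, h3, by omega⟩
  · intro hv
    have e1 : v.1 = 2 * (T.γ.c T.i0).1 := by rw [hv]; rfl
    have e2 : v.2 = 2 * (T.γ.c T.i0).2 := by rw [hv]; rfl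
    set c := T.γ.c T.i0 with hc
    have hin : ∀ a b : ℤ, (a = 0 ∨ a = -1) → (b = 0 ∨ b = -1) → T.γ.inside (c.1 + a, c.2 + b) := by
      intro a b ha hb
      obtain ⟨f, hf, h1, h2, h3, h4⟩ := hdn a b (by rcases ha with rfl | rfl <;> simp)
        (by rcases hb with rfl | rfl <;> simp)
      have hf1 : f.1 = c.1 + a := by
        simp only at h1 h2
        rcases ha with rfl | rfl <;> omega
      have hf2 : f.2 = c.2 + b := by
        simp only at h3 h4
        rcases hb with rfl | rfl <;> omega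
      have : f = (c.1 + a, c.2 + b) := Prod.ext hf1 hf2
      rw [← this]; exact hf
    have i00 : T.γ.inside (c.1, c.2) := by simpa using hin 0 0 (Or.inl rfl) (Or.inl rfl)
    have i10 : T.γ.inside (c.1 - 1, c.2) := by
      simpa [sub_eq_add_neg] using hin (-1) 0 (Or.inr rfl) (Or.inl rfl)
    have i01 : T.γ.inside (c.1, c.2 - 1) := by
      simpa [sub_eq_add_neg] using hin 0 (-1) (Or.inl rfl) (Or.inr rfl)
    have i11 : T.γ.inside (c.1 - 1, c.2 - 1) := by
      simpa [sub_eq_add_neg] using hin (-1) (-1) (Or.inr rfl) (Or.inr rfl)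
    have hedge : T.γ.edge c (T.γ.c (T.i0 + 1)) := ⟨T.i0, Or.inl ⟨rfl, rfl⟩⟩
    rcases LatCycle.adj_cases (T.γ.adj T.i0) with h | h | h | h
    · rw [h] at hedge
      have : T.γ.hedge c.1 c.2 := (LatCycle.hedge_iff T.γ _ _).2 hedge
      exact (LatCycle.inside_iff_h' _ _ this).1 i00 i01
    · rw [h] at hedge
      have : T.γ.hedge (c.1 - 1) c.2 := (LatCycle.hedge_iff T.γ _ _).2 (by
        rw [sub_add_cancel]; exact LatCycle.edge_comm.1 hedge)
      exact (LatCycle.inside_iff_h' _ _ this).1 i10 i11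
    · rw [h] at hedge
      have : T.γ.vedge c.1 c.2 := (LatCycle.vedge_iff T.γ _ _).2 hedge
      exact (LatCycle.inside_iff_v' _ _ this).1 i00 i10
    · rw [h] at hedge
      have : T.γ.vedge c.1 (c.2 - 1) := (LatCycle.vedge_iff T.γ _ _).2 (by
        rw [sub_add_cancel]; exact LatCycle.edge_comm.1 hedge)
      exact (LatCycle.inside_iff_v' _ _ this).1 i01 i11

/-- partners stay in `V` -/
theorem IsPM.mem {V : Finset Pt} {m : Pt → Pt} (hm : IsPM V m) {v : Pt} (hv : v ∈ V) : m v ∈ V := by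
  by_contra h
  have h1 := hm.off _ h
  rw [hm.invol] at h1
  rw [← h1] at h
  exact h hv

theorem mem_Vin {V B : Finset Pt} {m : Pt → Pt} {v : Pt} :
    v ∈ Vin V B m ↔ v ∈ V ∧ v ∈ B ∧ m v ∈ B := by
  unfold Vin
  rw [Finset.mem_filter]

theorem sub_Vin {T : Temp} {B : Finset Pt} {m : Pt → Pt} (hm : m ∈ PM T.V) :
    Sub T (Vin T.V B m) := by
  refine ⟨m, hm, fun v hv => ?_⟩
  rw [mem_Vin] at hv
  have h := mem_PM.1 hm
  refine ⟨hv.1, mem_Vin.2 ⟨IsPM.mem h hv.1, hv.2.2, ?_⟩⟩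
  rw [h.invol]
  exact hv.2.1

theorem dn_adj {u v : Pt} (h : Adj u v) : dn u v ≤ 1 := by
  unfold Adj at h
  have h1 := abs_nonneg (u.1 - v.1)
  have h2 := abs_nonneg (u.2 - v.2)
  rw [dn_le_iff]
  push_cast
  constructor <;> linarith

/-- the box of radius `n - 1` is unexplored -/
theorem mem_Vin_of_box {T : Temp} {x : Pt} {n : ℕ} (hn : n + 2 ≤ dF T.faceSet x) {m : Pt → Pt}
    (hm : m ∈ PM T.V) {v : Pt} {r : ℕ} (hr : r + 1 ≤ n) (hv : v ∈ box x r) :
    v ∈ Vin T.V (box x n) m := by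
  rw [mem_box_iff_dn] at hv
  have hV : v ∈ T.V := mem_V (x := x) (by omega)
  rw [mem_Vin, mem_box_iff_dn, mem_box_iff_dn]
  refine ⟨hV, by omega, ?_⟩
  have h1 := dn_triangle x v (m v)
  have h2 := dn_adj ((mem_PM.1 hm).adj v hV)
  omega

end Vale.Agent.P155.H924
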