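import Vale.Agent.P155.H924.Prob
import Vale.Agent.P155.H924.DetStmt

/-!
# P155, block D: local statistics on the lattice boxes of D4
-/

namespace Vale.Agent.P155.H924

open Finset Skel

theorem abs_le_floor {a : ℤ} {t : ℝ} (h : |(a : ℝ)| ≤ t) : |a| ≤ (⌊t⌋₊ : ℤ) := by
  have h1 : ((a.natAbs : ℕ) : ℝ) ≤ t := by
    rw [Nat.cast_natAbs, Int.cast_abs]
    exact h
  have := Nat.le_floor h1
  rw [Int.abs_eq_natAbs]
  exact_mod_cast this

section lat

variable {x : Pt} {t : ℝ} {s : D4.Bx} {r p : Pt}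

theorem lat_left (ht : 0 < t) (hp : p ∈ D4.lat x t (s.u 0) (s.u 1) s.ρ r) :
    (1 / 2 < ((p.1 : ℝ) - x.1) / t ∧ ((p.1 : ℝ) - x.1) / t < 3 / 4) ∧
      (-1 / 4 < ((p.2 : ℝ) - x.2) / t ∧ ((p.2 : ℝ) - x.2) / t < 1 / 4) := by
  rw [D4.mem_lat ht] at hp
  have hz : (![((p.1 : ℝ) - x.1) / t, ((p.2 : ℝ) - x.2) / t, s.u 2, s.u 3] : Fin 4 → ℝ) ∈
      Metric.closedBall s.u s.ρ := by
    rw [Metric.mem_closedBall, dist_pi_le_iff s.pos.le, Fin.forall_fin_succ, Fin.forall_fin_succ,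
      Fin.forall_fin_succ, Fin.forall_fin_succ]
    refine ⟨?_, ?_, ?_, ?_, fun i => i.elim0⟩
    · rw [Real.dist_eq]; exact hp.1.1
    · rw [Real.dist_eq]; exact hp.1.2
    · rw [Real.dist_eq]
      change |s.u 2 - s.u 2| ≤ s.ρ
      rw [sub_self, abs_zero]; exact s.pos.le
    · rw [Real.dist_eq]
      change |s.u 3 - s.u 3| ≤ s.ρ
      rw [sub_self, abs_zero]; exact s.pos.le
  have := D4.mem_reg.1 (s.sub hz)
  exact ⟨this.1, this.2.1⟩

theorem lat_right (ht : 0 < t) (hp : p ∈ D4.lat x t (s.u 2) (s.u 3) s.ρ r) :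
    (-3 / 4 < ((p.1 : ℝ) - x.1) / t ∧ ((p.1 : ℝ) - x.1) / t < -1 / 2) ∧
      (-1 / 4 < ((p.2 : ℝ) - x.2) / t ∧ ((p.2 : ℝ) - x.2) / t < 1 / 4) := by
  rw [D4.mem_lat ht] at hp
  have hz : (![s.u 0, s.u 1, ((p.1 : ℝ) - x.1) / t, ((p.2 : ℝ) - x.2) / t] : Fin 4 → ℝ) ∈
      Metric.closedBall s.u s.ρ := by
    rw [Metric.mem_closedBall, dist_pi_le_iff s.pos.le, Fin.forall_fin_succ, Fin.forall_fin_succ,
      Fin.forall_fin_succ, Fin.forall_fin_succ]
    refine ⟨?_, ?_, ?_, ?_, fun i => i.elim0⟩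
    · rw [Real.dist_eq]
      change |s.u 0 - s.u 0| ≤ s.ρ
      rw [sub_self, abs_zero]; exact s.pos.le
    · rw [Real.dist_eq]
      change |s.u 1 - s.u 1| ≤ s.ρ
      rw [sub_self, abs_zero]; exact s.pos.le
    · rw [Real.dist_eq]; exact hp.1.1
    · rw [Real.dist_eq]; exact hp.1.2
  have := D4.mem_reg.1 (s.sub hz)
  exact ⟨this.2.2.1, this.2.2.2⟩

theorem box_of_div (ht : 0 < t) (h1 : |((p.1 : ℝ) - x.1) / t| ≤ 1)
    (h2 : |((p.2 : ℝ) - x.2) / t| ≤ 1) : p ∈ box x ⌊t⌋₊ := by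
  rw [abs_div, abs_of_pos ht, div_le_one ht] at h1 h2
  rw [mem_box]
  exact ⟨abs_le_floor (by push_cast; exact h1), abs_le_floor (by push_cast; exact h2)⟩

theorem lat_left_box (ht : 0 < t) (hp : p ∈ D4.lat x t (s.u 0) (s.u 1) s.ρ r) :
    p ∈ box x ⌊t⌋₊ := by
  obtain ⟨⟨h1, h2⟩, h3, h4⟩ := lat_left ht hp
  exact box_of_div ht (abs_le.2 ⟨by linarith, by linarith⟩) (abs_le.2 ⟨by linarith, by linarith⟩)

theorem lat_right_box (ht : 0 < t) (hp : p ∈ D4.lat x t (s.u 2) (s.u 3) s.ρ r) :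
    p ∈ box x ⌊t⌋₊ := by
  obtain ⟨⟨h1, h2⟩, h3, h4⟩ := lat_right ht hp
  exact box_of_div ht (abs_le.2 ⟨by linarith, by linarith⟩) (abs_le.2 ⟨by linarith, by linarith⟩)

theorem lat_ne (ht : 0 < t) {q r' : Pt} (hp : p ∈ D4.lat x t (s.u 0) (s.u 1) s.ρ r)
    (hq : q ∈ D4.lat x t (s.u 2) (s.u 3) s.ρ r') : p ≠ q := by
  rintro rfl
  have h1 := (lat_left ht hp).1.1
  have h2 := (lat_right ht hq).1.2
  linarith

theorem lat_white (ht : 0 < t) {u v ρ : ℝ} (hr : r ∈ ({(1, 0), (0, 1)} : Finset Pt))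
    (hp : p ∈ D4.lat x t u v ρ r) : White p := by
  rw [D4.mem_lat ht] at hp
  obtain ⟨_, ⟨a, ha⟩, ⟨b, hb⟩⟩ := hp
  rw [Finset.mem_insert, Finset.mem_singleton] at hr
  unfold White
  rcases hr with rfl | rfl
  · exact ⟨a + b, by simp only at ha hb; omega⟩
  · exact ⟨a + b, by simp only at ha hb; omega⟩

theorem sg_mul_sg {a b : ℤ} (h : Even (a - b)) : sg a * sg b = 1 := by
  unfold sg
  by_cases hb : Even b
  · have ha : Even a := by
      have := h.add hb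
      rwa [sub_add_cancel] at this
    rw [if_pos ha, if_pos hb, mul_one]
  · have ha : ¬ Even a := by
      intro ha
      have := ha.sub h
      rw [sub_sub_cancel] at this
      exact hb this
    rw [if_neg ha, if_neg hb]
    norm_num

theorem K_right (p : Pt) : K p (p + (1, 0)) = 1 := by
  unfold K
  rw [if_pos (by ext <;> simp)]

theorem K_up (p : Pt) : K p (p + (0, 1)) = sg p.2 := by
  unfold K
  rw [if_neg, if_neg, if_pos]
  · ext <;> simp
  · rw [Prod.ext_iff]; simp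
  · rw [Prod.ext_iff]; simp

theorem lat_K (ht : 0 < t) {u v u' v' ρ : ℝ} {d q : Pt} (hd : d ∈ ({(1, 0), (0, 1)} : Finset Pt))
    (hp : p ∈ D4.lat x t u v ρ r) (hq : q ∈ D4.lat x t u' v' ρ r) :
    K p (p + d) * K q (q + d) = 1 := by
  rw [D4.mem_lat ht] at hp hq
  rw [Finset.mem_insert, Finset.mem_singleton] at hd
  rcases hd with rfl | rfl
  · rw [K_right, K_right, one_mul]
  · rw [K_up, K_up]
    apply sg_mul_sg
    have := hp.2.2.sub hq.2.2
    rwa [sub_sub_sub_cancel_right] at this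

theorem add_mem_box {d : Pt} {n : ℕ} (hd : d ∈ ({(1, 0), (0, 1)} : Finset Pt)) (hp : p ∈ box x n) :
    p + d ∈ box x (n + 1) := by
  rw [mem_box_iff_dn] at hp ⊢
  have := dn_triangle x p (p + d)
  have h2 := dn_adj (adj_add (p := p) hd)
  omega

end lat

open Classical in
/-- exponential moments of the local statistics, unconditional -/
theorem loc_cosh (hloc : C_local) : ∃ c > (0 : ℝ), ∃ C : ℝ, ∀ (T : Temp) (x : Pt) (t : ℕ), 1 ≤ t →
    4 * t ≤ dF T.faceSet x → ∀ (P : Finset Pt) (d : Pt), (∀ p ∈ P, White p ∧ p ∈ box x t) →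
    Ex1 T.V (fun m => Real.cosh (c / (t * Real.sqrt (Real.log (t + 2))) *
      (Lst P d m - Ex1 T.V (Lst P d)))) ≤ C := by
  obtain ⟨c, hc, C, h⟩ := hloc
  refine ⟨c, hc, C, fun T x t ht hdF P d hP => ?_⟩
  have h1 := h T x t ht hdF (fun w b => if w ∈ P ∧ b = w + d then 1 else 0)
    (fun w b => by split_ifs <;> simp)
    (fun w b hw => by
      rw [if_neg]
      rintro ⟨h1, -⟩
      exact hw (hP w h1).2)
  have e : ∀ m, (∑ w ∈ T.V.filter White, if w ∈ P ∧ m w = w + d then (1 : ℝ) else 0) =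
      Lst P d m := by
    intro m
    unfold Lst
    rw [← Finset.sum_subset (s₁ := P)]
    · exact Finset.sum_congr rfl fun p hp => by simp only [hp, true_and]
    · intro p hp
      rw [Finset.mem_filter]
      refine ⟨mem_V (x := x) ?_, (hP p hp).1⟩
      have := mem_box_iff_dn.1 (hP p hp).2
      omega
    · intro w _ hw
      rw [if_neg]
      rintro ⟨h1, -⟩
      exact hw h1
  have e2 : (fun m : Pt → Pt => ∑ w ∈ T.V.filter White, if w ∈ P ∧ m w = w + d then (1 : ℝ) else 0)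
      = Lst P d := funext e
  simp only at h1
  rw [e2] at h1
  simp only [e] at h1
  exact h1

/-- Markov property for functions of a local statistic -/
theorem mark_Lst (hmark : A_mark) {T : Temp} {x : Pt} {n : ℕ} (hn : n + 2 ≤ dF T.faceSet x)
    {P : Finset Pt} {d : Pt} {t : ℕ} (ht : t + 1 ≤ n) (hP : ∀ p ∈ P, p ∈ box x t) (F : ℝ → ℝ) :
    Ex1 T.V (fun m => F (Lst P d m)) =
      Ex1 T.V (fun m => Ex1 (Vin T.V (box x n) m) (fun m' => F (Lst P d m'))) := by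
  rw [hmark T.V (box x n) (fun m => F (Lst P d m))]
  refine Ex1_congr fun m hm => Ex1_congr fun m' _ => ?_
  congr 1
  unfold Lst
  refine Finset.sum_congr rfl fun p hp => ?_
  have : p ∈ Vin T.V (box x n) m := mem_Vin_of_box hn hm ht (hP p hp)
  simp only [this, if_true]

end Vale.Agent.P155.H924
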