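import Vale.Agent.P155.H924.Loc

/-!
# P155, block D: assembly of `D_good`
-/

namespace Vale.Agent.P155.H924

open Finset Skel Filter

/-- unsigned monomer ratio of the unexplored region -/
noncomputable def ratio (T : Temp) (x : Pt) (n : ℕ) (b w : Pt) (m : Pt → Pt) : ℝ :=
  (Z (Vin T.V (box x n) m \ {w, b}) : ℝ) / Z (Vin T.V (box x n) m)

/-- conditional exponential moment of a local statistic -/
noncomputable def GG (T : Temp) (x : Pt) (n : ℕ) (lam : ℝ) (P : Finset Pt) (d : Pt)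
    (m : Pt → Pt) : ℝ :=
  Ex1 (Vin T.V (box x n) m) (fun m' => Real.cosh (lam * (Lst P d m' - Ex1 T.V (Lst P d))))

theorem ratio_nonneg (T : Temp) (x : Pt) (n : ℕ) (b w : Pt) (m : Pt → Pt) :
    0 ≤ ratio T x n b w m := by unfold ratio; positivity

theorem GG_nonneg (T : Temp) (x : Pt) (n : ℕ) (lam : ℝ) (P : Finset Pt) (d : Pt) (m : Pt → Pt) :
    0 ≤ GG T x n lam P d m :=
  mul_nonneg (by positivity) (Finset.sum_nonneg fun _ _ => (Real.cosh_pos _).le)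

/-- bound of the covariance sums from the conditional exponential moments -/
theorem cov_sum_le (hinv : A_inv) (hone : A_one) (htwo : A_two) {T : Temp} {x : Pt} {n : ℕ}
    (hn : n + 2 ≤ dF T.faceSet x) {m : Pt → Pt} (hm : m ∈ PM T.V) {t : ℝ} (ht : 0 < t)
    (htn : ⌊t⌋₊ + 2 ≤ n) {lam M : ℝ} (hlam : 0 < lam) {s : D4.Bx} {r d : Pt}
    (hr : r ∈ ({(1, 0), (0, 1)} : Finset Pt)) (hd : d ∈ ({(1, 0), (0, 1)} : Finset Pt))
    (h1 : GG T x n lam (D4.lat x t (s.u 0) (s.u 1) s.ρ r) d m ≤ M)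
    (h2 : GG T x n lam (D4.lat x t (s.u 2) (s.u 3) s.ρ r) d m ≤ M) {q : ℕ} (hq : q ≠ 0) :
    |∑ p ∈ D4.lat x t (s.u 0) (s.u 1) s.ρ r, ∑ p' ∈ D4.lat x t (s.u 2) (s.u 3) s.ρ r,
      Kinv (Vin T.V (box x n) m) (p + d) p' * Kinv (Vin T.V (box x n) m) (p' + d) p| ≤
      lam⁻¹ ^ 2 * (((2 * q).factorial : ℝ) * M) ^ ((q : ℝ)⁻¹) := by
  have hsub := sub_Vin (B := box x n) hm
  have hZ := (hinv T _ hsub).2.1
  have hP : ∀ p ∈ D4.lat x t (s.u 0) (s.u 1) s.ρ r, White p ∧ p ∈ Vin T.V (box x n) m ∧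
      p + d ∈ Vin T.V (box x n) m := fun p hp =>
    ⟨lat_white ht hr hp, mem_Vin_of_box hn hm (by omega) (lat_left_box ht hp),
      mem_Vin_of_box hn hm (by omega) (add_mem_box hd (lat_left_box ht hp))⟩
  have hP' : ∀ p ∈ D4.lat x t (s.u 2) (s.u 3) s.ρ r, White p ∧ p ∈ Vin T.V (box x n) m ∧
      p + d ∈ Vin T.V (box x n) m := fun p hp =>
    ⟨lat_white ht hr hp, mem_Vin_of_box hn hm (by omega) (lat_right_box ht hp),
      mem_Vin_of_box hn hm (by omega) (add_mem_box hd (lat_right_box ht hp))⟩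
  have e := cov_eq hone htwo hsub hd hP hP' (fun p hp p' hp' => lat_ne ht hp hp')
    (fun p hp p' hp' => lat_K ht hd hp hp')
  have e2 := cov_le hZ (Lst (D4.lat x t (s.u 0) (s.u 1) s.ρ r) d)
    (Lst (D4.lat x t (s.u 2) (s.u 3) s.ρ r) d)
    (Ex1 T.V (Lst (D4.lat x t (s.u 0) (s.u 1) s.ρ r) d))
    (Ex1 T.V (Lst (D4.lat x t (s.u 2) (s.u 3) s.ρ r) d))
  rw [e, abs_neg] at e2
  have e3 := sq_moment hZ hlam h1 hq
  have e4 := sq_moment hZ hlam h2 hq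
  linarith

/-- deterministic consequence of the two families of events -/
theorem good_of_events (hinv : A_inv) (hle : A_le) (hone : A_one) (htwo : A_two)
    {A : Pt → ℝ} {κ ε A0 c0 C2 : ℝ} {S : List D4.Bx} {x : Pt} {n : ℕ}
    (hdet : ∀ (Q : Pt → Pt → ℝ) (B : ℝ), 1 ≤ B →
      (∀ w w', White w → White w' → w ∈ box x ⌊c0 * n⌋₊ → w' ∈ box x ⌊c0 * n⌋₊ →
        ∑ b ∈ nbrs w', K w' b * Q b w = if w' = w then 1 else 0) →
      (∀ b b', Black b → Black b' → b ∈ box x ⌊c0 * n⌋₊ → b' ∈ box x ⌊c0 * n⌋₊ →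
        ∑ w ∈ nbrs b', Q b w * K w b' = if b' = b then 1 else 0) →
      (∀ b w, Black b → White w → b ∈ box x ⌊c0 * n⌋₊ → w ∈ box x ⌊c0 * n⌋₊ →
        |Q b w| ≤ (n : ℝ) ^ A0) →
      (∀ s ∈ S, ∀ r ∈ ({(1, 0), (0, 1)} : Finset Pt), ∀ d ∈ ({(1, 0), (0, 1)} : Finset Pt),
        |∑ p ∈ D4.lat x ((n : ℝ) ^ (1 - κ)) (s.u 0) (s.u 1) s.ρ r,
          ∑ q ∈ D4.lat x ((n : ℝ) ^ (1 - κ)) (s.u 2) (s.u 3) s.ρ r, Q (p + d) q * Q (q + d) p| ≤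
          B * ((n : ℝ) ^ (1 - κ)) ^ 2) →
      ∀ b w, Black b → White w → b ∈ box x ⌊(n : ℝ) ^ (1 - κ) / 20⌋₊ →
        w ∈ box x ⌊(n : ℝ) ^ (1 - κ) / 20⌋₊ →
        |Q b w - Kp A b w| ≤ C2 * B / (n : ℝ) ^ (1 - κ))
    {T : Temp} (hn1 : 1 ≤ n) (hn : n + 2 ≤ dF T.faceSet x) (hc0n : ⌊c0 * n⌋₊ + 1 ≤ n)
    (htn : ⌊(n : ℝ) ^ (1 - κ)⌋₊ + 2 ≤ n) {m : Pt → Pt} (hm : m ∈ PM T.V)
    {lam M B : ℝ} (hlam : 0 < lam) {q : ℕ} (hq : q ≠ 0) (hB1 : 1 ≤ B)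
    (hB : lam⁻¹ ^ 2 * (((2 * q).factorial : ℝ) * M) ^ ((q : ℝ)⁻¹) ≤ B * ((n : ℝ) ^ (1 - κ)) ^ 2)
    (hfin : C2 * B / (n : ℝ) ^ (1 - κ) ≤ (n : ℝ) ^ (-1 + κ + ε))
    (h1 : ∀ b w, Black b → White w → b ∈ box x ⌊c0 * n⌋₊ → w ∈ box x ⌊c0 * n⌋₊ →
      ratio T x n b w m ≤ (n : ℝ) ^ A0)
    (h2 : ∀ s ∈ S, ∀ r ∈ ({(1, 0), (0, 1)} : Finset Pt), ∀ d ∈ ({(1, 0), (0, 1)} : Finset Pt),
      GG T x n lam (D4.lat x ((n : ℝ) ^ (1 - κ)) (s.u 0) (s.u 1) s.ρ r) d m ≤ M ∧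
      GG T x n lam (D4.lat x ((n : ℝ) ^ (1 - κ)) (s.u 2) (s.u 3) s.ρ r) d m ≤ M) :
    GoodM A T κ ε x n m := by
  have hsub := sub_Vin (B := box x n) hm
  obtain ⟨-, -, hr1, hr2⟩ := hinv T _ hsub
  have ht : (0 : ℝ) < (n : ℝ) ^ (1 - κ) := by positivity
  intro b w hb hw hbx hwx
  refine (hdet (Kinv (Vin T.V (box x n) m)) B hB1 ?_ ?_ ?_ ?_ b w hb hw hbx hwx).trans hfin
  · intro w w' h h' hw hw'
    exact hr1 w w' h h' (mem_Vin_of_box hn hm hc0n hw) (mem_Vin_of_box hn hm hc0n hw')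
  · intro b b' h h' hb hb'
    exact hr2 b b' h h' (mem_Vin_of_box hn hm hc0n hb) (mem_Vin_of_box hn hm hc0n hb')
  · intro b w h h' hb hw
    exact (hle T _ hsub b w (mem_Vin_of_box hn hm hc0n hb) (mem_Vin_of_box hn hm hc0n hw) h h').trans
      (h1 b w h h' hb hw)
  · intro s hs r hr d hd
    exact (cov_sum_le hinv hone htwo hn hm ht htn hlam hr hd (h2 s hs r hr d hd).1
      (h2 s hs r hr d hd).2 hq).trans hB

open Classical in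
/-- pointwise bound of the bad indicator -/
theorem bad_le {good : Prop} {ι₁ ι₂ : Type*} (s₁ : Finset ι₁) (s₂ : Finset ι₂) (f : ι₁ → ℝ)
    (g : ι₂ → ℝ) {a M : ℝ} (ha : 0 < a) (hM : 0 < M) (hf : ∀ i ∈ s₁, 0 ≤ f i)
    (hg : ∀ i ∈ s₂, 0 ≤ g i)
    (h : (∀ i ∈ s₁, f i ≤ a) → (∀ i ∈ s₂, g i ≤ M) → good) :
    (if good then (0 : ℝ) else 1) ≤ a⁻¹ * ∑ i ∈ s₁, f i + M⁻¹ * ∑ i ∈ s₂, g i := by
  have hs1 : 0 ≤ a⁻¹ * ∑ i ∈ s₁, f i := mul_nonneg (by positivity) (Finset.sum_nonneg hf)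
  have hs2 : 0 ≤ M⁻¹ * ∑ i ∈ s₂, g i := mul_nonneg (by positivity) (Finset.sum_nonneg hg)
  split_ifs with hgood
  · linarith
  · by_contra hlt
    rw [not_le] at hlt
    apply hgood
    apply h
    · intro i hi
      have h1 : f i ≤ ∑ i ∈ s₁, f i := Finset.single_le_sum hf hi
      have h2 : a⁻¹ * ∑ i ∈ s₁, f i < 1 := by linarith
      rw [inv_mul_lt_iff₀ ha, mul_one] at h2
      linarith
    · intro i hi
      have h1 : g i ≤ ∑ i ∈ s₂, g i := Finset.single_le_sum hg hi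
      have h2 : M⁻¹ * ∑ i ∈ s₂, g i < 1 := by linarith
      rw [inv_mul_lt_iff₀ hM, mul_one] at h2
      linarith

end Vale.Agent.P155.H924
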