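import Vale.Agent.P155.H924.Geom

/-!
# P155, block D3: moments, conditional covariances of local statistics
-/

namespace Vale.Agent.P155.H924

open Finset Skel

theorem Ex1_mono {V : Finset Pt} {f g : (Pt → Pt) → ℝ} (h : ∀ m ∈ PM V, f m ≤ g m) :
    Ex1 V f ≤ Ex1 V g :=
  mul_le_mul_of_nonneg_left (Finset.sum_le_sum h) (by positivity)

theorem Ex1_congr {V : Finset Pt} {f g : (Pt → Pt) → ℝ} (h : ∀ m ∈ PM V, f m = g m) :
    Ex1 V f = Ex1 V g := by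
  unfold Ex1
  rw [Finset.sum_congr rfl h]

theorem Ex1_add (V : Finset Pt) (f g : (Pt → Pt) → ℝ) :
    Ex1 V (fun m => f m + g m) = Ex1 V f + Ex1 V g := by
  unfold Ex1
  rw [Finset.sum_add_distrib, mul_add]

theorem Ex1_sub (V : Finset Pt) (f g : (Pt → Pt) → ℝ) :
    Ex1 V (fun m => f m - g m) = Ex1 V f - Ex1 V g := by
  unfold Ex1
  rw [Finset.sum_sub_distrib, mul_sub]

theorem Ex1_mul_left (V : Finset Pt) (a : ℝ) (f : (Pt → Pt) → ℝ) :
    Ex1 V (fun m => a * f m) = a * Ex1 V f := by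
  unfold Ex1
  rw [← Finset.mul_sum]
  ring

theorem Ex1_sum {ι : Type*} (V : Finset Pt) (s : Finset ι) (f : ι → (Pt → Pt) → ℝ) :
    Ex1 V (fun m => ∑ i ∈ s, f i m) = ∑ i ∈ s, Ex1 V (f i) := by
  unfold Ex1
  rw [Finset.sum_comm, Finset.mul_sum]

theorem Ex1_const {V : Finset Pt} (hZ : 0 < Z V) (a : ℝ) : Ex1 V (fun _ => a) = a := by
  unfold Ex1
  rw [Finset.sum_const, nsmul_eq_mul]
  have : ((PM V).card : ℝ) = Z V := rfl
  rw [this, ← mul_assoc, inv_mul_cancel₀ (by positivity), one_mul]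

theorem Ex1_le_const {V : Finset Pt} {f : (Pt → Pt) → ℝ} {a : ℝ} (ha : 0 ≤ a)
    (h : ∀ m ∈ PM V, f m ≤ a) : Ex1 V f ≤ a := by
  rcases Nat.eq_zero_or_pos (Z V) with h0 | h0
  · unfold Ex1
    rw [h0]
    simpa using ha
  · exact (Ex1_mono h).trans (Ex1_const h0 a).le

/-- `y^{2q}/(2q)! ≤ cosh y` -/
theorem pow_le_cosh (y : ℝ) (q : ℕ) : y ^ (2 * q) ≤ ((2 * q).factorial : ℝ) * Real.cosh y := by
  have h := Real.hasSum_cosh y
  have h2 : y ^ (2 * q) / ((2 * q).factorial : ℝ) ≤ Real.cosh y :=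
    le_hasSum h q (fun i _ => by
      rw [pow_mul]
      positivity)
  rw [div_le_iff₀ (by positivity)] at h2
  linarith

/-- Jensen: second moment from an exponential moment -/
theorem sq_moment {V : Finset Pt} (hZ : 0 < Z V) {Y : (Pt → Pt) → ℝ} {lam M : ℝ} (hlam : 0 < lam)
    (hM : Ex1 V (fun m => Real.cosh (lam * Y m)) ≤ M) {q : ℕ} (hq : q ≠ 0) :
    Ex1 V (fun m => Y m ^ 2) ≤ lam⁻¹ ^ 2 * (((2 * q).factorial : ℝ) * M) ^ ((q : ℝ)⁻¹) := by
  have hZ' : (0 : ℝ) < Z V := by exact_mod_cast hZ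
  have hcard : ((PM V).card : ℝ) = Z V := rfl
  have h1 : (Ex1 V (fun m => (lam * Y m) ^ 2)) ^ q ≤ Ex1 V (fun m => ((lam * Y m) ^ 2) ^ q) := by
    have := Real.pow_arith_mean_le_arith_mean_pow (PM V) (fun _ => (Z V : ℝ)⁻¹)
      (fun m => (lam * Y m) ^ 2) (fun _ _ => by positivity)
      (by rw [Finset.sum_const, nsmul_eq_mul, hcard, mul_inv_cancel₀ hZ'.ne'])
      (fun _ _ => by positivity) q
    unfold Ex1
    rw [Finset.mul_sum, Finset.mul_sum]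
    exact this
  have h2 : Ex1 V (fun m => ((lam * Y m) ^ 2) ^ q) ≤ ((2 * q).factorial : ℝ) * M := by
    calc Ex1 V (fun m => ((lam * Y m) ^ 2) ^ q)
        ≤ Ex1 V (fun m => ((2 * q).factorial : ℝ) * Real.cosh (lam * Y m)) :=
          Ex1_mono fun m _ => by rw [← pow_mul]; exact pow_le_cosh _ _
      _ = ((2 * q).factorial : ℝ) * Ex1 V (fun m => Real.cosh (lam * Y m)) := Ex1_mul_left _ _ _
      _ ≤ _ := mul_le_mul_of_nonneg_left hM (by positivity)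
  have h0 : 0 ≤ Ex1 V (fun m => (lam * Y m) ^ 2) := by
    unfold Ex1
    exact mul_nonneg (by positivity) (Finset.sum_nonneg fun _ _ => by positivity)
  have h3 : Ex1 V (fun m => (lam * Y m) ^ 2) ≤ (((2 * q).factorial : ℝ) * M) ^ ((q : ℝ)⁻¹) := by
    have := Real.rpow_le_rpow (pow_nonneg h0 q) (h1.trans h2) (z := (q : ℝ)⁻¹) (by positivity)
    rwa [Real.pow_rpow_inv_natCast h0 hq] at this
  have h4 : Ex1 V (fun m => (lam * Y m) ^ 2) = lam ^ 2 * Ex1 V (fun m => Y m ^ 2) := by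
    rw [← Ex1_mul_left]
    exact Ex1_congr fun m _ => by ring
  rw [h4] at h3
  calc Ex1 V (fun m => Y m ^ 2) = lam⁻¹ ^ 2 * (lam ^ 2 * Ex1 V (fun m => Y m ^ 2)) := by
        field_simp
    _ ≤ _ := mul_le_mul_of_nonneg_left h3 (by positivity)

/-- covariance bound by second moments about arbitrary points -/
theorem cov_le {V : Finset Pt} (hZ : 0 < Z V) (L1 L2 : (Pt → Pt) → ℝ) (a1 a2 : ℝ) :
    |Ex1 V (fun m => L1 m * L2 m) - Ex1 V L1 * Ex1 V L2| ≤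
      (Ex1 V (fun m => (L1 m - a1) ^ 2) + Ex1 V (fun m => (L2 m - a2) ^ 2)) / 2 := by
  have hvar : ∀ (L : (Pt → Pt) → ℝ) (a : ℝ),
      Ex1 V (fun m => (L m - Ex1 V L) ^ 2) ≤ Ex1 V (fun m => (L m - a) ^ 2) := by
    intro L a
    have e : Ex1 V (fun m => (L m - a) ^ 2) =
        Ex1 V (fun m => (L m - Ex1 V L) ^ 2) + (Ex1 V L - a) ^ 2 := by
      set μ := Ex1 V L with hμ
      have : Ex1 V (fun m => (L m - a) ^ 2) =
          Ex1 V (fun m => (L m - μ) ^ 2 + (2 * (μ - a) * (L m - μ) + (μ - a) ^ 2)) :=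
        Ex1_congr fun m _ => by ring
      rw [this, Ex1_add, Ex1_add, Ex1_const hZ, Ex1_mul_left, Ex1_sub, Ex1_const hZ, ← hμ]
      ring
    rw [e]
    nlinarith [sq_nonneg (Ex1 V L - a)]
  have hcov : Ex1 V (fun m => L1 m * L2 m) - Ex1 V L1 * Ex1 V L2 =
      Ex1 V (fun m => (L1 m - Ex1 V L1) * (L2 m - Ex1 V L2)) := by
    set μ1 := Ex1 V L1 with hμ1
    set μ2 := Ex1 V L2 with hμ2
    have : Ex1 V (fun m => (L1 m - μ1) * (L2 m - μ2)) =
        Ex1 V (fun m => L1 m * L2 m - (μ2 * L1 m + (μ1 * L2 m - μ1 * μ2))) :=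
      Ex1_congr fun m _ => by ring
    rw [this, Ex1_sub, Ex1_add, Ex1_sub, Ex1_mul_left, Ex1_mul_left, Ex1_const hZ, ← hμ1, ← hμ2]
    ring
  rw [hcov]
  have h1 := hvar L1 a1
  have h2 := hvar L2 a2
  have h3 : Ex1 V (fun m => (L1 m - Ex1 V L1) * (L2 m - Ex1 V L2)) ≤
      (Ex1 V (fun m => (L1 m - Ex1 V L1) ^ 2) + Ex1 V (fun m => (L2 m - Ex1 V L2) ^ 2)) / 2 := by
    calc _ ≤ Ex1 V (fun m => (1 / 2) * ((L1 m - Ex1 V L1) ^ 2 + (L2 m - Ex1 V L2) ^ 2)) :=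
          Ex1_mono fun m _ => by nlinarith [sq_nonneg ((L1 m - Ex1 V L1) - (L2 m - Ex1 V L2))]
      _ = _ := by rw [Ex1_mul_left, Ex1_add]; ring
  have h4 : -((Ex1 V (fun m => (L1 m - Ex1 V L1) ^ 2) + Ex1 V (fun m => (L2 m - Ex1 V L2) ^ 2)) / 2) ≤
      Ex1 V (fun m => (L1 m - Ex1 V L1) * (L2 m - Ex1 V L2)) := by
    have : Ex1 V (fun m => (-1 / 2) * ((L1 m - Ex1 V L1) ^ 2 + (L2 m - Ex1 V L2) ^ 2)) ≤
        Ex1 V (fun m => (L1 m - Ex1 V L1) * (L2 m - Ex1 V L2)) :=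
      Ex1_mono fun m _ => by nlinarith [sq_nonneg ((L1 m - Ex1 V L1) + (L2 m - Ex1 V L2))]
    rw [Ex1_mul_left, Ex1_add] at this
    linarith
  rw [abs_le]
  constructor <;> linarith

open Classical in
/-- number of points `p` of `P` matched to `p + d` -/
noncomputable def Lst (P : Finset Pt) (d : Pt) (m : Pt → Pt) : ℝ :=
  ∑ p ∈ P, if m p = p + d then (1 : ℝ) else 0

theorem adj_add {p d : Pt} (hd : d ∈ ({(1, 0), (0, 1)} : Finset Pt)) : Adj p (p + d) := by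
  rw [Finset.mem_insert, Finset.mem_singleton] at hd
  rcases hd with rfl | rfl <;> simp [Adj]

open Classical in
/-- the covariance of two local statistics of the same type -/
theorem cov_eq (hone : A_one) (htwo : A_two) {T : Temp} {V : Finset Pt} (hV : Sub T V)
    {P P' : Finset Pt} {d : Pt} (hd : d ∈ ({(1, 0), (0, 1)} : Finset Pt))
    (hP : ∀ p ∈ P, White p ∧ p ∈ V ∧ p + d ∈ V) (hP' : ∀ p ∈ P', White p ∧ p ∈ V ∧ p + d ∈ V)
    (hne : ∀ p ∈ P, ∀ q ∈ P', p ≠ q)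
    (hK : ∀ p ∈ P, ∀ q ∈ P', K p (p + d) * K q (q + d) = 1) :
    Ex1 V (fun m => Lst P d m * Lst P' d m) - Ex1 V (Lst P d) * Ex1 V (Lst P' d) =
      - ∑ p ∈ P, ∑ q ∈ P', Kinv V (p + d) q * Kinv V (q + d) p := by
  have e1 : ∀ {Q : Finset Pt}, (∀ p ∈ Q, White p ∧ p ∈ V ∧ p + d ∈ V) →
      Ex1 V (Lst Q d) = ∑ p ∈ Q, K p (p + d) * Kinv V (p + d) p := by
    intro Q hQ
    have : Ex1 V (Lst Q d) = Ex1 V (fun m => ∑ p ∈ Q, if m p = p + d then (1 : ℝ) else 0) := rfl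
    rw [this, Ex1_sum]
    refine Finset.sum_congr rfl fun p hp => ?_
    obtain ⟨h1, h2, h3⟩ := hQ p hp
    have := hone T V hV p (p + d) h1 h2 h3 (adj_add hd)
    rw [← this]
  have e2 : Ex1 V (fun m => Lst P d m * Lst P' d m) =
      ∑ p ∈ P, ∑ q ∈ P', K p (p + d) * K q (q + d) *
        (Kinv V (p + d) p * Kinv V (q + d) q - Kinv V (p + d) q * Kinv V (q + d) p) := by
    have : Ex1 V (fun m => Lst P d m * Lst P' d m) =
        Ex1 V (fun m => ∑ p ∈ P, ∑ q ∈ P', if m p = p + d ∧ m q = q + d then (1 : ℝ) else 0) := by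
      refine Ex1_congr fun m _ => ?_
      unfold Lst
      rw [Finset.sum_mul_sum]
      refine Finset.sum_congr rfl fun p _ => Finset.sum_congr rfl fun q _ => ?_
      by_cases h1 : m p = p + d <;> by_cases h2 : m q = q + d <;> simp [h1, h2]
    rw [this, Ex1_sum]
    refine Finset.sum_congr rfl fun p hp => ?_
    rw [Ex1_sum]
    refine Finset.sum_congr rfl fun q hq => ?_
    obtain ⟨h1, h2, h3⟩ := hP p hp
    obtain ⟨h1', h2', h3'⟩ := hP' q hq
    have := htwo T V hV p (p + d) q (q + d) h1 h1' h2 h3 h2' h3' (adj_add hd) (adj_add hd)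
      (hne p hp q hq)
    rw [← this]
  rw [e1 hP, e1 hP', e2, Finset.sum_mul_sum, ← Finset.sum_sub_distrib, ← Finset.sum_neg_distrib]
  refine Finset.sum_congr rfl fun p hp => ?_
  rw [← Finset.sum_sub_distrib, ← Finset.sum_neg_distrib]
  refine Finset.sum_congr rfl fun q hq => ?_
  have := hK p hp q hq
  linear_combination (-(Kinv V (p + d) q * Kinv V (q + d) p)) * this

end Vale.Agent.P155.H924
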